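import Crest.Agent.N76.II.UT.Num

-- ▼ part N76/II/UT/Av
section

/-! # Row 76, upper tower: the bad lines of one window (helper14). -/

set_option autoImplicit false

open MeasureTheory Set Metric

namespace Crest.Agent.N76.II.UT

open Crest.Agent.N76.Red (V)
open Crest.Agent.N76.G

variable {d : ℕ}

theorem rpow_gam_le {B : ℝ} (hB : 1 ≤ B) (d : ℕ) : B ^ (2 / ((d : ℝ) + 2)) ≤ B :=
  Real.rpow_le_self_of_one_le hB (gam_exp_le_one d)

theorem Nice.mono {W : V d × ℝ → ℝ} {Mx Mx' r : ℝ} (h : Nice W Mx r) (hM : Mx ≤ Mx') :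
    Nice W Mx' r := ⟨h.1, fun u => ⟨(h.2.1 u).1, (h.2.1 u).2.trans hM⟩, h.2.2⟩

/-- the conclusion of the averaging lemma in the window `k` of the level `i + 1` -/
def Good {ι : Type} (C R B : ℝ) (b j i₀ k₁ : ℕ) (X : Finset ι) (p : ι → V d × ℝ) (w : ι → ℝ)
    (i : ℕ) (k : ℤ) (Bad : Set (Ph d)) (E : Finset ι) : Prop :=
  Cov E p (2 ^ k₁) (C * R ^ d * (b : ℝ) ^ (2 * (i + 1)) / (B ^ 3 * (2 ^ k₁) ^ (d + 1))) ∧
  (∀ z ∈ X, win b (i + 1) (p z).2 = k → z ∉ E → ∃ F : Finset (V d),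
    (F.card : ℝ) ≤ (B ^ 3)⁻¹ * ((b : ℝ) ^ j) ^ d ∧
    ∀ β ∈ Dir d ∩ Bad, ‖pos (p z).2 β - (p z).1‖ ≤ (b : ℝ) ^ (i + 1 + 1) →
      ∃ ζ ∈ F, ‖β.2 - ζ‖ ≤ 1 / (b : ℝ) ^ j) ∧
  ∀ β ∈ Dir d \ Bad,
    xray (vv X p w (sc d R B b i₀ i)) (k * (b : ℝ) ^ (2 * (i + 1)) - (b : ℝ) ^ (2 * (i + 1)) / 2)
      (k * (b : ℝ) ^ (2 * (i + 1)) - (b : ℝ) ^ (2 * (i + 1)) / 2 + 2 * (b : ℝ) ^ (2 * (i + 1))) β ≤
    C * xray (vv X p w (sc d R B b i₀ (i + 1))) ((k - 1) * (b : ℝ) ^ (2 * (i + 1)))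
      ((k + 2) * (b : ℝ) ^ (2 * (i + 1))) β +
    C * ((b : ℝ) ^ (2 * (i + 1)) / (B * Ssc (d + 1) R ^ 2))

theorem exists_bad (hAV : AV d) : ∃ C : ℝ, 1 ≤ C ∧ ∀ (M : ℕ) (R B : ℝ) (b j i₀ k₁ : ℕ),
    NF d M R B b j i₀ → Ssc (d + 1) R ^ 2 ≤ 2 ^ k₁ → (2 : ℝ) ^ k₁ ≤ 2 * Ssc (d + 1) R ^ 2 →
    ∀ (ι : Type) (X : Finset ι) (p : ι → V d × ℝ) (w : ι → ℝ), Reg R B X p w →
    (∀ z ∈ X, p z ∈ closedBall (0 : V d × ℝ) R) →
    (∀ i, i₀ ≤ i → Nice (vv X p w (sc d R B b i₀ i)) (C * B / Ssc (d + 1) R ^ 2)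
      (sc d R B b i₀ i)) ∧
    ∀ i, i₀ ≤ i → i < M → ∀ k : ℤ, ∃ (Bad : Set (Ph d)) (E : Finset ι), MeasurableSet Bad ∧
      Good C R B b j i₀ k₁ X p w i k Bad E := by
  classical
  obtain ⟨C₁, hC₁, hAV⟩ := hAV
  obtain ⟨C₂, hC₂, hD⟩ := exists_dens_const d
  have hC : 1 ≤ C₁ * C₂ := one_le_mul_of_one_le_of_one_le hC₁ hC₂
  refine ⟨54 * (C₁ * C₂), by linarith, fun M R B b j i₀ k₁ h hk₁ hk₂ ι X p w hX hR => ?_⟩
  obtain ⟨hD1, hD2⟩ := hD ι X p w hX.1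
  have hB := h.B_pos
  have hS := h.S_one
  have hN : ∀ i, i₀ ≤ i → Nice (vv X p w (sc d R B b i₀ i)) (C₂ * B / Ssc (d + 1) R ^ 2)
      (sc d R B b i₀ i) := fun i hi => by
    refine Nice.mono (hD2 R B _ h.hR h.B_one hX (h.rho_le_sc hi)).2 ?_
    gcongr
    exact rpow_gam_le h.B_one d
  refine ⟨fun i hi => Nice.mono (hN i hi) (by gcongr; nlinarith), fun i hi hiM k => ?_⟩
  set L : ℝ := (b : ℝ) ^ (2 * (i + 1)) with hL
  have hL1 : 1 ≤ L := h.bpow_one _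
  have hr := h.sc_pos hi
  have hr' := h.sc_pos (show i₀ ≤ i + 1 by omega)
  have hrr := h.sc_mono hi
  have hr'L : sc d R B b i₀ (i + 1) ≤ L / 2 := h.sc_le_half (by omega)
  have hkr : (2 : ℝ) ^ k₁ ≤ sc d R B b i₀ i := by
    refine hk₂.trans (le_trans ?_ (h.le_sc hi))
    rw [mul_comm]
    gcongr
    have : B ≤ B ^ 3 := by simpa using h.Bpow_mono (show 1 ≤ 3 by norm_num)
    linarith [h.hB]
  obtain ⟨Bad, E, hBad, hE, hF, hG⟩ := hAV {0} (fun _ => vv X p w (sc d R B b i₀ i)) 1 1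
    (C₂ * B / Ssc (d + 1) R ^ 2) (sc d R B b i₀ i) (sc d R B b i₀ (i + 1)) (2 ^ k₁)
    (k * L - L / 2) (2 * L) R (B ^ 2)⁻¹ (B ^ 3)⁻¹ ((b : ℝ) ^ j) ((b : ℝ) ^ (i + 1 + 1))
    le_rfl zero_le_one (by simp) (fun ξ => by simp) (by positivity) (fun _ _ => hN i hi)
    (by positivity) hkr (by linarith) hr' (by linarith)
    (by have := (h.bpow_mono (show 2 * (i + 1) ≤ 2 * M by omega)).trans h.hL2; linarith [h.hR])
    (by positivity) (by positivity) (h.bpow_one j) (by positivity)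
    (by
      have h1 := h.B_mul_le_sc hi
      have h2 : (b : ℝ) ^ (i + 1 + 1) = (b : ℝ) ^ 2 * (b : ℝ) ^ i := by ring
      have h3 : 0 ≤ (b : ℝ) ^ 2 * (b : ℝ) ^ i := by positivity
      rw [h2]
      nlinarith [h.hB])
    (h.win_le_sc hi) ι (X.filter fun z => win b (i + 1) (p z).2 = k) p
    (fun z hz => by
      obtain ⟨hz, hk⟩ := Finset.mem_filter.1 hz
      have h1 := win_le h.b_pos (i + 1) (p z).2
      rw [wt, hk] at h1
      refine ⟨(norm_fst_le _).trans (mem_closedBall_zero_iff.1 (hR z hz)), ?_, ?_⟩ <;>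
        linarith [h1.1, h1.2])
  refine ⟨Bad, E, hBad, Cov.mono hE ?_, fun z hz hk hzE => ?_, fun β hβ => ?_⟩
  · have h1 : √(1 * sc d R B b i₀ (i + 1) / (2 * L)) ≤ (B ^ 10)⁻¹ := by
      rw [h.sc_succ hi, ← hL]
      refine Real.sqrt_le_iff.2 ⟨by positivity, ?_⟩
      rw [div_le_iff₀ (by positivity), inv_pow, ← pow_mul, one_mul, div_eq_inv_mul]
      gcongr
      linarith
    have hR0 : 0 < R := by linarith [h.hR]
    calc _ ≤ C₁ * 1 ^ 2 * (B ^ 10)⁻¹ * R ^ d * (2 * L) /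
          (((B ^ 2)⁻¹) ^ 2 * (B ^ 3)⁻¹ * (2 ^ k₁) ^ (d + 1)) := by gcongr
      _ = 2 * C₁ * R ^ d * L / (B ^ 3 * (2 ^ k₁) ^ (d + 1)) := by field_simp
      _ ≤ _ := by
          have : 2 * C₁ ≤ 54 * (C₁ * C₂) := by nlinarith
          gcongr
  · obtain ⟨F, hF1, hF2⟩ := hF z (Finset.mem_filter.2 ⟨hz, hk⟩) hzE
    exact ⟨F, hF1, fun β hβ => hF2 β hβ.2 hβ.1⟩
  · have h1 := hG β hβ.2 hβ.1
    simp only [lw, Finset.sum_singleton, sub_zero, neg_mul, one_mul] at h1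
    have h2 : xray (bavg (vv X p w (sc d R B b i₀ i)) (sc d R B b i₀ (i + 1)))
        (k * L - L / 2 - sc d R B b i₀ (i + 1)) (k * L - L / 2 + 2 * L + sc d R B b i₀ (i + 1)) β ≤
        C₂ * xray (vv X p w (sc d R B b i₀ (i + 1))) ((k - 1) * L) ((k + 2) * L) β := by
      refine (xray_mono (W' := fun u => C₂ * vv X p w (sc d R B b i₀ (i + 1)) u)
        (continuous_bavg (continuous_vv _) _) (continuous_const.mul (continuous_vv _))
        (fun u => mul_nonneg (by linarith) (vv_nonneg hX.1 hr' u))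
        (fun u => (hD1 _ _ u hr hrr).2) (s₁ := (k - 1) * L) (s₂ := (k + 2) * L) (by linarith)
        (by linarith) (by linarith) β).trans_eq ?_
      rw [xray, xray, intervalIntegral.integral_const_mul]
    have h3 : 0 ≤ xray (vv X p w (sc d R B b i₀ (i + 1))) ((k - 1) * L) ((k + 2) * L) β :=
      xray_nonneg (vv_nonneg hX.1 hr') (by linarith) β
    have h4 : 1 ≤ 27 * Real.exp (-‖β.2‖) := by
      have h5 : Real.exp ‖β.2‖ ≤ 27 := by
        calc _ ≤ Real.exp (3 : ℕ) := Real.exp_le_exp.2 (by exact_mod_cast hβ.1)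
          _ = Real.exp 1 ^ 3 := by rw [← Real.exp_nat_mul, mul_one]
          _ ≤ 3 ^ 3 := by gcongr; exact Real.exp_one_lt_three.le
          _ = 27 := by norm_num
      rw [Real.exp_neg, ← div_eq_mul_inv, one_le_div (Real.exp_pos _)]
      exact h5
    have h6 : Real.exp (-‖β.2‖) ≤ 1 := Real.exp_le_one_iff.2 (by simp)
    have h7 : C₁ * (B ^ 2)⁻¹ * (C₂ * B / Ssc (d + 1) R ^ 2) * (2 * L) =
        2 * (C₁ * C₂) * (L / (B * Ssc (d + 1) R ^ 2)) := by field_simp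
    rw [h7] at h1
    have h8 : 0 ≤ xray (vv X p w (sc d R B b i₀ i)) (k * L - L / 2) (k * L - L / 2 + 2 * L) β :=
      xray_nonneg (vv_nonneg hX.1 hr) (by linarith) β
    have h9 : C₁ * (Real.exp (-‖β.2‖) * xray (bavg (vv X p w (sc d R B b i₀ i))
        (sc d R B b i₀ (i + 1))) (k * L - L / 2 - sc d R B b i₀ (i + 1))
        (k * L - L / 2 + 2 * L + sc d R B b i₀ (i + 1)) β) ≤
        C₁ * (1 * (C₂ * xray (vv X p w (sc d R B b i₀ (i + 1))) ((k - 1) * L) ((k + 2) * L) β)) := by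
      refine mul_le_mul_of_nonneg_left ((mul_le_mul_of_nonneg_left h2 (Real.exp_pos _).le).trans
        (mul_le_mul_of_nonneg_right h6 (by positivity))) (by linarith)
    have h10 := mul_le_mul_of_nonneg_right h4 h8
    have h11 : 0 ≤ C₁ * C₂ * xray (vv X p w (sc d R B b i₀ (i + 1))) ((k - 1) * L) ((k + 2) * L) β :=
      by positivity
    nlinarith

end Crest.Agent.N76.II.UT
end

-- ▼ part N76/II/UT/Chain
section

/-! # Row 76, upper tower: the downward chain of weighted energies (helper14). -/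

set_option autoImplicit false

open MeasureTheory Set Metric

namespace Crest.Agent.N76.II.UT

open Crest.Agent.N76.Red (V)
open Crest.Agent.N76.G

variable {d : ℕ}

theorem integrable_xray {W : V d × ℝ → ℝ} {Mx r : ℝ} (hW : Nice W Mx r) {t₁ t₂ : ℝ} (h : t₁ ≤ t₂)
    {c : Ph d → ℂ} (hc : MemLp c 2 volume) : Integrable fun β => xray W t₁ t₂ β * ‖c β‖ ^ 2 :=
  integrable_weight (continuous_xray hW.1 _ _).measurable (Wm := Mx * (t₂ - t₁)) (fun β => by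
    rw [abs_of_nonneg (xray_nonneg (fun u => (hW.2.1 u).1) h β)]
    exact xray_le hW.1 (fun u => (hW.2.1 u).2) h β) hc

theorem integral_indicator_co_le {a : ℝ} (ha : 0 < a) (t : ℝ) (A : Set (Ph d))
    (H : L2 d) : ∫ β, ‖A.indicator (co a t H) β‖ ^ 2 ≤ ‖H‖ ^ 2 := by
  rw [← integral_co_sq ha t H]
  refine integral_mono_of_nonneg (.of_forall fun β => by positivity)
    ((memLp_co ha t H).integrable_norm_pow two_ne_zero) (.of_forall fun β => ?_)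
  exact pow_le_pow_left₀ (norm_nonneg _) (norm_indicator_le_norm_self _ _) 2

/-- one step of the chain inside one window of the upper level -/
theorem step {M : ℕ} {R B : ℝ} {b j i₀ : ℕ} (h : NF d M R B b j i₀) {i : ℕ} (hi : i₀ ≤ i)
    (hiM : i < M) {W W' : V d × ℝ → ℝ} {Mx Mx' r' C e : ℝ} (hW : Nice W Mx (sc d R B b i₀ i))
    (hW' : Nice W' Mx' r') (hC : 0 ≤ C) (he : 0 ≤ e) {G' : Set (Ph d)} (hG' : MeasurableSet G')
    (hGD : G' ⊆ Dir d) (k' : ℤ)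
    (hav : ∀ β ∈ G', xray W (k' * (b : ℝ) ^ (2 * (i + 1)) - (b : ℝ) ^ (2 * (i + 1)) / 2)
      (k' * (b : ℝ) ^ (2 * (i + 1)) - (b : ℝ) ^ (2 * (i + 1)) / 2 + 2 * (b : ℝ) ^ (2 * (i + 1))) β ≤
      C * xray W' ((k' - 1) * (b : ℝ) ^ (2 * (i + 1))) ((k' + 2) * (b : ℝ) ^ (2 * (i + 1))) β +
      C * e) (H : L2 d) :
    ∑ k ∈ Finset.Ico (k' * (b : ℤ) ^ 2) ((k' + 1) * (b : ℤ) ^ 2),
      ∫ β in Dir d, xray W ((k - 1) * (b : ℝ) ^ (2 * i)) ((k + 2) * (b : ℝ) ^ (2 * i)) β *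
        ‖co ((b : ℝ) ^ i) (k * (b : ℝ) ^ (2 * i))
          (loc ((b : ℝ) ^ (i + 1)) (k' * (b : ℝ) ^ (2 * (i + 1))) G' H) β‖ ^ 2 ≤
    18 * 9 ^ d * C * ((∫ β in Dir d,
        xray W' ((k' - 1) * (b : ℝ) ^ (2 * (i + 1))) ((k' + 2) * (b : ℝ) ^ (2 * (i + 1))) β *
        ‖co ((b : ℝ) ^ (i + 1)) (k' * (b : ℝ) ^ (2 * (i + 1))) H β‖ ^ 2) + e * ‖H‖ ^ 2) +
      18 * 16 ^ d * ((5 * R) ^ d * Real.exp (-((b : ℝ) ^ 2 / 7))) *
        (Mx * (b : ℝ) ^ (2 * (i + 1))) * ‖H‖ ^ 2 := by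
  have hb2 := h.b_two
  have hR := h.hR
  set L : ℝ := (b : ℝ) ^ (2 * i) with hL
  have hL' : (b : ℝ) ^ (2 * (i + 1)) = (b : ℝ) ^ 2 * L := by rw [hL]; ring
  have hL1 : 1 ≤ L := h.bpow_one _
  have hb4 : (4 : ℝ) ≤ (b : ℝ) ^ 2 := by nlinarith
  have ha' : (0 : ℝ) < (b : ℝ) ^ (i + 1) := by positivity
  have hMx : 0 ≤ Mx := (hW.2.1 0).1.trans (hW.2.1 0).2
  have hW0 : ∀ u, 0 ≤ W u := fun u => (hW.2.1 u).1
  rw [hL'] at hav ⊢
  set t' : ℝ := k' * ((b : ℝ) ^ 2 * L) with ht'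
  set c : Ph d → ℂ := G'.indicator (co ((b : ℝ) ^ (i + 1)) t' H) with hcdef
  have hc : MemLp c 2 volume := memLp_indicator_co ha' t' hG' H
  have hcH : ∫ β, ‖c β‖ ^ 2 ≤ ‖H‖ ^ 2 := integral_indicator_co_le ha' t' G' H
  set T : ℝ := 18 * 16 ^ d * ((5 * R) ^ d * Real.exp (-((b : ℝ) ^ 2 / 7))) with hT
  have hT0 : 0 ≤ T := by positivity
  set s := Finset.Ico (k' * (b : ℤ) ^ 2) ((k' + 1) * (b : ℤ) ^ 2) with hs
  have hcard : (s.card : ℝ) = (b : ℝ) ^ 2 := by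
    rw [hs, Int.card_Ico, show (k' + 1) * (b : ℤ) ^ 2 - k' * (b : ℤ) ^ 2 = (b ^ 2 : ℕ) by
      push_cast; ring, Int.toNat_natCast, Nat.cast_pow]
  have h1 : ∀ k ∈ s, ∫ β in Dir d, xray W ((k - 1) * L) ((k + 2) * L) β *
        ‖co ((b : ℝ) ^ i) (k * L) (loc ((b : ℝ) ^ (i + 1)) t' G' H) β‖ ^ 2 ≤
      6 * 9 ^ d * (∫ β, xray W ((k - 1) * L) ((k + 2) * L) β * ‖c β‖ ^ 2) +
        T * (Mx * L) * ‖H‖ ^ 2 := by
    intro k hk
    obtain ⟨hk1, hk2⟩ := Finset.mem_Ico.1 hk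
    have hk1' : (k' : ℝ) * (b : ℝ) ^ 2 ≤ k := by exact_mod_cast hk1
    have hk2' : (k : ℝ) < (k' + 1) * (b : ℝ) ^ 2 := by exact_mod_cast hk2
    have h2 := xray_transfer hW (h.sc_pos hi) (a := (b : ℝ) ^ i) (a' := (b : ℝ) ^ (i + 1))
      (t := k * L) (t' := t') (R := R) (q := b) (h.bpow_one i) (h.bpow_mono (by omega))
      (by rw [sq_pow]; exact (h.bpow_mono (by omega)).trans h.hL2)
      (by rw [sq_pow, hL', ht', abs_le]; constructor <;> nlinarith) h.b_one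
      (by
        refine le_trans ?_ (h.B_mul_le_sc hi)
        calc 10 * √d * b * (b : ℝ) ^ (i + 1) ≤ B * b * (b : ℝ) ^ (i + 1) := by
              gcongr; exact h.hBd
          _ = _ := by ring) hc
    rw [sq_pow, ← hL, show (k : ℝ) * L - L = (k - 1) * L by ring,
      show (k : ℝ) * L + 2 * L = (k + 2) * L by ring] at h2
    refine h2.trans (add_le_add le_rfl ?_)
    exact mul_le_mul_of_nonneg_left hcH (by positivity)
  refine (Finset.sum_le_sum h1).trans ?_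
  rw [Finset.sum_add_distrib, Finset.sum_const, nsmul_eq_mul, hcard, ← Finset.mul_sum]
  refine add_le_add ?_ (le_of_eq (by ring))
  have hI : ∀ k : ℤ, ((k : ℝ) - 1) * L ≤ (k + 2) * L := fun k => by nlinarith
  have hI' : ((k' : ℝ) - 1) * ((b : ℝ) ^ 2 * L) ≤ (k' + 2) * ((b : ℝ) ^ 2 * L) := by nlinarith
  have hco := memLp_co ha' t' H
  have i1 := (integrable_xray hW' hI' hco).indicator (measurableSet_Dir (d := d))
  have i2 := (hco.integrable_norm_pow two_ne_zero).const_mul e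
  rw [← integral_finsetSum _ fun k _ => integrable_xray hW (hI k) hc, ← integral_co_sq ha' t' H,
    ← integral_indicator measurableSet_Dir, ← integral_const_mul e, ← integral_add i1 i2,
    show (18 : ℝ) * 9 ^ d * C = 6 * 9 ^ d * (3 * C) by ring, mul_assoc (6 * 9 ^ d : ℝ),
    ← integral_const_mul (3 * C)]
  refine mul_le_mul_of_nonneg_left (integral_mono (integrable_finsetSum _ fun k _ =>
    integrable_xray hW (hI k) hc) ((i1.add i2).const_mul _) fun β => ?_) (by positivity)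
  dsimp only
  rw [← Finset.sum_mul]
  by_cases hβ : β ∈ G'
  · rw [indicator_of_mem (hGD hβ), hcdef, indicator_of_mem hβ, ← add_mul, ← mul_assoc]
    refine mul_le_mul_of_nonneg_right ?_ (by positivity)
    refine (sum_xray_le hW.1 hW0 (by linarith) _ _ (by nlinarith [sq_nonneg (b : ℤ)]) β).trans ?_
    have h3 := hav β hβ
    have h4 := xray_mono hW.1 hW.1 hW0 (fun _ => le_rfl)
      (t₁ := (((k' * (b : ℤ) ^ 2 : ℤ) : ℝ) - 1) * L) (t₂ := ((((k' + 1) * (b : ℤ) ^ 2 : ℤ) : ℝ) + 1) * L)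
      (s₁ := t' - (b : ℝ) ^ 2 * L / 2) (s₂ := t' - (b : ℝ) ^ 2 * L / 2 + 2 * ((b : ℝ) ^ 2 * L))
      (by push_cast; nlinarith) (by push_cast; nlinarith) (by push_cast; nlinarith) β
    linarith
  · rw [hcdef, indicator_of_notMem hβ, norm_zero, zero_pow two_ne_zero, mul_zero]
    refine mul_nonneg (by positivity) (add_nonneg (indicator_nonneg (fun β _ => mul_nonneg
      (xray_nonneg (fun u => (hW'.2.1 u).1) hI' β) (by positivity)) β) (by positivity))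

/-- the constant of one step -/
noncomputable def Dc (d M : ℕ) (C : ℝ) : ℝ :=
  (18 * 9 ^ d + 18 * 16 ^ d * 5 ^ d * (7 ^ (2 * M * (d + 1)) * (2 * M * (d + 1)).factorial)) * C

theorem le_Dc (d M : ℕ) {C : ℝ} (hC : 1 ≤ C) : 18 * 9 ^ d * C ≤ Dc d M C := by
  unfold Dc
  gcongr
  exact le_add_of_nonneg_right (by positivity)

theorem one_le_Dc (d M : ℕ) {C : ℝ} (hC : 1 ≤ C) : 1 ≤ Dc d M C := by
  refine le_trans ?_ (le_Dc d M hC)
  have : (1 : ℝ) ≤ 9 ^ d := one_le_pow₀ (by norm_num)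
  nlinarith

theorem tail_le {M : ℕ} {R B : ℝ} {b j i₀ : ℕ} (h : NF d M R B b j i₀) {C L n : ℝ} (hC : 1 ≤ C)
    (hL : 0 ≤ L) (hn : 0 ≤ n) {x : ℝ} (hx : 0 ≤ x) :
    18 * 9 ^ d * C * (x + L / (B * Ssc (d + 1) R ^ 2) * n) +
      18 * 16 ^ d * ((5 * R) ^ d * Real.exp (-((b : ℝ) ^ 2 / 7))) *
        (C * B / Ssc (d + 1) R ^ 2 * L) * n ≤
      Dc d M C * (x + L / (B * Ssc (d + 1) R ^ 2) * n) := by
  have hB := h.B_pos
  have hS := h.S_one
  have hR := h.hR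
  have h1 := h.tail (d + 1)
  have h2 : B ^ 2 ≤ R := by
    rw [← h.sqrt_sq]; gcongr; exact h.B_le_sqrt
  rw [Dc, add_mul, add_mul]
  refine add_le_add le_rfl ?_
  calc _ = 18 * 16 ^ d * 5 ^ d * (R ^ d * B ^ 2 * Real.exp (-((b : ℝ) ^ 2 / 7))) * C *
        (L / (B * Ssc (d + 1) R ^ 2) * n) := by rw [mul_pow]; field_simp
    _ ≤ _ := by
        have h3 : R ^ d * B ^ 2 * Real.exp (-((b : ℝ) ^ 2 / 7)) ≤
            7 ^ (2 * M * (d + 1)) * (2 * M * (d + 1)).factorial := by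
          refine le_trans ?_ h1
          rw [pow_succ R]; gcongr
        exact mul_le_mul (mul_le_mul_of_nonneg_right (mul_le_mul_of_nonneg_left h3 (by positivity))
          (by linarith)) (le_add_of_nonneg_left hx) (by positivity) (by positivity)

/-- the weighted energy of the level `i` -/
noncomputable def Elev {ι : Type} (R B : ℝ) (b i₀ M : ℕ) (X : Finset ι) (p : ι → V d × ℝ)
    (w : ι → ℝ) (G : ℕ → ℤ → Set (Ph d)) (k₀ : ℤ) (H : L2 d) (i : ℕ) : ℝ :=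
  ∑ k ∈ Finset.Ico (k₀ * (b : ℤ) ^ (2 * (M - i))) ((k₀ + 1) * (b : ℤ) ^ (2 * (M - i))),
    ∫ β in Dir d, xray (vv X p w (sc d R B b i₀ i)) ((k - 1) * (b : ℝ) ^ (2 * i))
      ((k + 2) * (b : ℝ) ^ (2 * i)) β *
      ‖co ((b : ℝ) ^ i) (k * (b : ℝ) ^ (2 * i)) (tower b G (i + 1) M H (k * (b : ℝ) ^ (2 * i))) β‖ ^ 2

section
variable {M : ℕ} {R B C : ℝ} {b j i₀ : ℕ} {ι : Type} {X : Finset ι} {p : ι → V d × ℝ} {w : ι → ℝ}
  {G : ℕ → ℤ → Set (Ph d)}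

theorem Elev_nonneg (h : NF d M R B b j i₀) (hw : ∀ z ∈ X, 0 ≤ w z) (k₀ : ℤ) (H : L2 d) {i : ℕ}
    (hi : i₀ ≤ i) : 0 ≤ Elev R B b i₀ M X p w G k₀ H i :=
  Finset.sum_nonneg fun k _ => integral_nonneg fun β => mul_nonneg
    (xray_nonneg (vv_nonneg hw (h.sc_pos hi)) (by nlinarith [h.bpow_one (2 * i)]) β) (by positivity)

theorem chain_step (h : NF d M R B b j i₀) (hC : 1 ≤ C) (hw : ∀ z ∈ X, 0 ≤ w z)
    (hN : ∀ i, i₀ ≤ i → Nice (vv X p w (sc d R B b i₀ i)) (C * B / Ssc (d + 1) R ^ 2)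
      (sc d R B b i₀ i))
    (hG : ∀ l k, MeasurableSet (G l k)) (hGD : ∀ l k, G l k ⊆ Dir d) {i : ℕ} (hi : i₀ ≤ i)
    (hiM : i < M) (k₀ : ℤ)
    (hav : ∀ k : ℤ, ∀ β ∈ G (i + 1) k, xray (vv X p w (sc d R B b i₀ i))
      (k * (b : ℝ) ^ (2 * (i + 1)) - (b : ℝ) ^ (2 * (i + 1)) / 2)
      (k * (b : ℝ) ^ (2 * (i + 1)) - (b : ℝ) ^ (2 * (i + 1)) / 2 + 2 * (b : ℝ) ^ (2 * (i + 1))) β ≤
      C * xray (vv X p w (sc d R B b i₀ (i + 1))) ((k - 1) * (b : ℝ) ^ (2 * (i + 1)))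
        ((k + 2) * (b : ℝ) ^ (2 * (i + 1))) β +
      C * ((b : ℝ) ^ (2 * (i + 1)) / (B * Ssc (d + 1) R ^ 2))) (H : L2 d) :
    Elev R B b i₀ M X p w G k₀ H i ≤ Dc d M C * (Elev R B b i₀ M X p w G k₀ H (i + 1) +
      (b : ℝ) ^ (2 * M) / (B * Ssc (d + 1) R ^ 2) * ‖H‖ ^ 2) := by
  have hB := h.B_pos
  have hS := h.S_one
  have hR := h.hR
  have hb : (0 : ℤ) < (b : ℤ) ^ 2 := by have := h.b_pos; positivity
  refine le_trans ?_ (tail_le h hC (by positivity) (by positivity)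
    (Elev_nonneg h hw k₀ H (by omega)))
  unfold Elev
  rw [show (b : ℤ) ^ (2 * (M - i)) = (b : ℤ) ^ (2 * (M - (i + 1))) * (b : ℤ) ^ 2 by
    rw [← pow_add]; congr 1; omega, ← mul_assoc k₀, ← mul_assoc (k₀ + 1), sum_windows _ _ _ hb]
  set s := Finset.Ico (k₀ * (b : ℤ) ^ (2 * (M - (i + 1)))) ((k₀ + 1) * (b : ℤ) ^ (2 * (M - (i + 1))))
    with hs
  have hcard : (s.card : ℝ) * (b : ℝ) ^ (2 * (i + 1)) = (b : ℝ) ^ (2 * M) := by
    rw [hs, Int.card_Ico, show (k₀ + 1) * (b : ℤ) ^ (2 * (M - (i + 1))) -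
      k₀ * (b : ℤ) ^ (2 * (M - (i + 1))) = (b ^ (2 * (M - (i + 1))) : ℕ) by
      push_cast; ring, Int.toNat_natCast, Nat.cast_pow, ← pow_add]
    congr 1; omega
  refine (Finset.sum_le_sum (g := fun k' : ℤ => 18 * 9 ^ d * C * ((∫ β in Dir d,
      xray (vv X p w (sc d R B b i₀ (i + 1))) ((k' - 1) * (b : ℝ) ^ (2 * (i + 1)))
        ((k' + 2) * (b : ℝ) ^ (2 * (i + 1))) β * ‖co ((b : ℝ) ^ (i + 1)) (k' * (b : ℝ) ^ (2 * (i + 1)))
        (tower b G (i + 1 + 1) M H (k' * (b : ℝ) ^ (2 * (i + 1)))) β‖ ^ 2) +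
        (b : ℝ) ^ (2 * (i + 1)) / (B * Ssc (d + 1) R ^ 2) * ‖H‖ ^ 2) +
      18 * 16 ^ d * ((5 * R) ^ d * Real.exp (-((b : ℝ) ^ 2 / 7))) *
        (C * B / Ssc (d + 1) R ^ 2 * (b : ℝ) ^ (2 * (i + 1))) * ‖H‖ ^ 2)
    fun k' _ => ?_).trans (le_of_eq ?_)
  · have h1 := step h hi hiM (hN i hi) (hN (i + 1) (by omega)) (by linarith) (by positivity)
      (hG (i + 1) k') (hGD _ _) k' (hav k') (tower b G (i + 1 + 1) M H (k' * (b : ℝ) ^ (2 * (i + 1))))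
    have h2 := norm_tower_le h.b_pos hG (i + 1 + 1) M H (k' * (b : ℝ) ^ (2 * (i + 1)))
    refine le_trans (le_of_eq (Finset.sum_congr rfl fun k hk => ?_)) (h1.trans (by gcongr))
    have h3 : win b (i + 1) (k * (b : ℝ) ^ (2 * i)) = win b (i + 1) (k' * (b : ℝ) ^ (2 * (i + 1))) := by
      rw [win_int h.b_pos, win_eq_div b (Nat.le_succ i), win_int h.b_pos,
        show 2 * (i.succ - i) = 2 by omega, Nat.cast_pow, ediv_eq_iff hb]
      exact Finset.mem_Ico.1 hk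
    rw [tower_congr h.b_pos G M H h3, tower_eq_loc b G (show i + 1 ≤ M by omega), lev, wt,
      win_int h.b_pos]
  · rw [Finset.sum_add_distrib, ← Finset.mul_sum, Finset.sum_add_distrib, Finset.sum_const,
      Finset.sum_const, nsmul_eq_mul, nsmul_eq_mul, ← hcard]
    ring

theorem chain_top (h : NF d M R B b j i₀) (hC : 1 ≤ C)
    (hN : Nice (vv X p w (sc d R B b i₀ M)) (C * B / Ssc (d + 1) R ^ 2) (sc d R B b i₀ M))
    {k₀ : ℤ} (hk₀ : |k₀ * (b : ℝ) ^ (2 * M)| ≤ 2 * R) {𝓡 : Set (Ph d)} (h𝓡 : MeasurableSet 𝓡)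
    (g : L2 d) :
    Elev R B b i₀ M X p w G k₀ (loc √R 0 𝓡 g) M ≤ Dc d M C *
      ((∫ β in 𝓡, xray (vv X p w (sc d R B b i₀ M)) ((k₀ - 1) * (b : ℝ) ^ (2 * M))
        ((k₀ + 2) * (b : ℝ) ^ (2 * M)) β * ‖co √R 0 g β‖ ^ 2) +
      (b : ℝ) ^ (2 * M) / (B * Ssc (d + 1) R ^ 2) * ‖g‖ ^ 2) := by
  have hB := h.B_pos
  have hS := h.S_one
  have hR := h.hR
  have hT : 0 < √R := by positivity
  have hI : ((k₀ : ℝ) - 1) * (b : ℝ) ^ (2 * M) ≤ (k₀ + 2) * (b : ℝ) ^ (2 * M) := by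
    nlinarith [h.bpow_one (2 * M)]
  have h0 : 0 ≤ ∫ β in 𝓡, xray (vv X p w (sc d R B b i₀ M)) ((k₀ - 1) * (b : ℝ) ^ (2 * M))
        ((k₀ + 2) * (b : ℝ) ^ (2 * M)) β * ‖co √R 0 g β‖ ^ 2 :=
    integral_nonneg fun β => mul_nonneg (xray_nonneg (fun u => (hN.2.1 u).1) hI β) (by positivity)
  refine le_trans ?_ (tail_le h hC (by positivity) (by positivity) h0)
  have h1 := xray_transfer hN (h.sc_pos h.hi.le) (a := (b : ℝ) ^ M) (a' := √R)
    (t := k₀ * (b : ℝ) ^ (2 * M)) (t' := 0) (R := R) (q := b) (h.bpow_one M) (h.bpow_le_sqrt le_rfl)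
    h.sqrt_sq.le (by rwa [h.sqrt_sq, sub_zero]) h.b_one
    (le_trans (by gcongr; exact h.hBd) h.top_le_sc) (memLp_indicator_co hT 0 h𝓡 g)
  rw [sq_pow, show (k₀ : ℝ) * (b : ℝ) ^ (2 * M) - (b : ℝ) ^ (2 * M) = (k₀ - 1) * (b : ℝ) ^ (2 * M) by
    ring, show (k₀ : ℝ) * (b : ℝ) ^ (2 * M) + 2 * (b : ℝ) ^ (2 * M) = (k₀ + 2) * (b : ℝ) ^ (2 * M) by
    ring] at h1
  have h2 : ∫ β, xray (vv X p w (sc d R B b i₀ M)) ((k₀ - 1) * (b : ℝ) ^ (2 * M))
        ((k₀ + 2) * (b : ℝ) ^ (2 * M)) β * ‖𝓡.indicator (co √R 0 g) β‖ ^ 2 =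
      ∫ β in 𝓡, xray (vv X p w (sc d R B b i₀ M)) ((k₀ - 1) * (b : ℝ) ^ (2 * M))
        ((k₀ + 2) * (b : ℝ) ^ (2 * M)) β * ‖co √R 0 g β‖ ^ 2 := by
    rw [← integral_indicator h𝓡]
    refine integral_congr_ae (.of_forall fun β => ?_)
    by_cases hβ : β ∈ 𝓡 <;> simp [hβ]
  rw [h2] at h1
  rw [Elev, Nat.sub_self, mul_zero, pow_zero, mul_one, mul_one, Finset.Ico_add_one_right_eq_Icc,
    Finset.Icc_self, Finset.sum_singleton, tower_top]
  refine h1.trans (add_le_add ?_ ?_)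
  · have h3 : (6 : ℝ) * 9 ^ d ≤ 18 * 9 ^ d * C := by
      have : (0 : ℝ) < 9 ^ d := by positivity
      nlinarith
    exact mul_le_mul h3 (le_add_of_nonneg_right (by positivity)) h0 (by positivity)
  · exact mul_le_mul_of_nonneg_left (integral_indicator_co_le hT 0 𝓡 g) (by positivity)

end

end Crest.Agent.N76.II.UT
end

-- ▼ part N76/II/UT/Main

/-! # Row 76: the upper tower `UT` from `AV`, `SG`, `CH` (helper14). -/

set_option autoImplicit false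

open MeasureTheory Set Metric

namespace Crest.Agent.N76.II.UT

open Crest.Agent.N76.Red (V)
open Crest.Agent.N76.G

variable {d M : ℕ} {R B C : ℝ} {b j i₀ : ℕ} {ι : Type} {X : Finset ι} {p : ι → V d × ℝ}
  {w : ι → ℝ}

theorem chain {E : ℕ → ℝ} {D T e : ℝ} (hD : 1 ≤ D) (hT : 0 ≤ T) (he : 0 ≤ e)
    (hstep : ∀ i, i₀ ≤ i → i < M → E i ≤ D * (E (i + 1) + e)) (htop : E M ≤ D * (T + e))
    (m : ℕ) : ∀ i, i₀ ≤ i → i + m = M → E i ≤ (2 * D) ^ (m + 1) * (T + e) := by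
  induction m with
  | zero =>
    rintro i - rfl
    refine htop.trans ?_
    rw [zero_add, pow_one]
    gcongr; linarith
  | succ m ih =>
    intro i hi him
    have h1 := ih (i + 1) (by omega) (by omega)
    have h2 : 1 ≤ (2 * D) ^ (m + 1) := one_le_pow₀ (by linarith)
    have h3 : e ≤ (2 * D) ^ (m + 1) * (T + e) := by nlinarith
    calc E i ≤ D * (E (i + 1) + e) := hstep i hi (by omega)
      _ ≤ D * ((2 * D) ^ (m + 1) * (T + e) + (2 * D) ^ (m + 1) * (T + e)) := by gcongr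
      _ = _ := by ring

theorem mass_le (h : NF d M R B b j i₀) (hX : Reg R B X p w)
    (hR : ∀ z ∈ X, p z ∈ closedBall (0 : V d × ℝ) R) : ∑ z ∈ X, w z ≤ R ^ (d + 1) := by
  classical
  have h1 := hX.2 0 R h.hR
  have hS := h.S_one
  have hT := h.sqrt_one
  have hR1 := h.hR
  rw [ms, Finset.filter_true_of_mem hR, prd_eq_of_ge h.hR
    ((pow_le_pow_right₀ hS (by norm_num)).trans (h.S3_le.trans h.sqrt_le))] at h1
  refine h1.trans ?_
  rw [← mul_div_assoc, div_le_iff₀ (by positivity), mul_comm]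
  gcongr
  exact h.B_le_sqrt

theorem sg_num (h : NF d M R B b j i₀) {x : ℝ} (hx : x ≤ B) :
    x * (B ^ 3)⁻¹ * B ^ ((d : ℝ) / (d + 2)) *
      ((b : ℝ) ^ M * (B * (((b : ℝ) ^ M) ^ (d + 1) / √R))) ^ (2 / ((d : ℝ) + 2)) ≤
      (b : ℝ) ^ (2 * M) / (B * Ssc (d + 1) R ^ 2) := by
  have hB := h.B_pos
  have hS := h.S_one
  have hb : (0 : ℝ) < b := by linarith [h.b_two]
  have h1 : (b : ℝ) ^ M * (B * (((b : ℝ) ^ M) ^ (d + 1) / √R)) =
      B * ((b : ℝ) ^ M / Ssc (d + 1) R) ^ (d + 2) := by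
    rw [← Ssc_pow (d := d) h.hR, div_pow]; ring
  have h2 : B ^ ((d : ℝ) / (d + 2)) * B ^ (2 / ((d : ℝ) + 2)) = B := by
    rw [← Real.rpow_add hB, ← add_div, div_self (by positivity), Real.rpow_one]
  rw [h1, Real.mul_rpow hB.le (by positivity), ← Real.rpow_natCast (_ / _),
    ← Real.rpow_mul (by positivity),
    show ((d + 2 : ℕ) : ℝ) * (2 / ((d : ℝ) + 2)) = (2 : ℕ) by push_cast; field_simp,
    Real.rpow_natCast, div_pow, sq_pow, ← mul_assoc, mul_assoc (x * _), h2]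
  calc _ ≤ B * (B ^ 3)⁻¹ * B * ((b : ℝ) ^ (2 * M) / Ssc (d + 1) R ^ 2) := by gcongr
    _ = _ := by field_simp

theorem win_mem (h : NF d M R B b j i₀) {l : ℕ} (hl : l ≤ M) {t : ℝ} {k₀ : ℤ} (hk : win b M t = k₀) :
    win b l t ∈ Finset.Ico (k₀ * (b : ℤ) ^ (2 * (M - l))) ((k₀ + 1) * (b : ℤ) ^ (2 * (M - l))) := by
  have := h.b_pos
  rw [win_eq_div b hl, Nat.cast_pow, ediv_eq_iff (by positivity)] at hk
  exact Finset.mem_Ico.2 hk

end UT

open UT Crest.Agent.N76.G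
open Crest.Agent.N76.Red (V)

theorem ut_of (d : ℕ) (hd : 1 ≤ d) (hAV : AV d) (hSG : SG d) (hCH : CH d) : UT d := by
  classical
  intro α hα
  obtain ⟨C, hC, hAV⟩ := exists_bad hAV
  obtain ⟨M₀, hSG⟩ := hSG (2 * α) (by positivity) (4 * (d + 1))
  refine ⟨M₀, fun M hM => ?_⟩
  obtain ⟨b₀, hSG⟩ := hSG M hM
  obtain ⟨C', hC', hCH⟩ := hCH M
  have hD := one_le_Dc d M hC
  set Z : ℝ := 10 + 10 * √d + C * M + C' with hZ
  have hZ0 : 0 ≤ Z := by positivity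
  set K : ℝ := 4 * (M : ℝ) ^ 2 * (2 + C' * (4 * M * (2 * d + 1)).factorial) with hK
  refine ⟨K + (2 * Dc d M C) ^ (M + 1), max 1 (max (Z ^ α⁻¹) ((b₀ : ℝ) ^ (4 * M))), by positivity,
    le_max_left _ _, ?_⟩
  intro R hR B hB b hb hbB hL1 hL2 _ j i₀ k₁ hj hi h24 hS h23 hi0 hi0' hk₁ hk₂ ι X p w k₀ hX hXR hXk
  have hR1 : 1 ≤ R := (le_max_left _ _).trans hR
  have hZB : Z ≤ B := by
    refine le_trans ?_ hB
    rw [← Real.rpow_inv_rpow hZ0 hα.ne']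
    exact Real.rpow_le_rpow (by positivity) (((le_max_left _ _).trans (le_max_right _ _)).trans hR)
      hα.le
  have hCM : 0 ≤ C * M := by positivity
  have hd0 := Real.sqrt_nonneg d
  have h : NF d M R B b j i₀ := ⟨hd, hR1, by linarith, by linarith, hb, hbB, hL1, hL2, hj, hi, h24,
    hS, h23, hi0, hi0'⟩
  have hB0 := h.B_pos
  have hS1 := h.S_one
  have hb0 : (0 : ℝ) < b := by linarith [h.b_two]
  have hb₀ : b₀ ≤ b := by
    have h1 := (((le_max_right _ _).trans (le_max_right _ _)).trans hR).trans h.R_le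
    exact_mod_cast (pow_le_pow_iff_left₀ (by positivity) hb0.le (by omega)).1 h1
  obtain ⟨hN, hAV⟩ := hAV M R B b j i₀ k₁ h hk₁ hk₂ ι X p w hX hXR
  have hAV' : ∀ (l : ℕ) (k : ℤ), ∃ (Bad : Set (Ph d)) (E : Finset ι), MeasurableSet Bad ∧
      ∀ i, i₀ ≤ i → i < M → l = i + 1 → Good C R B b j i₀ k₁ X p w i k Bad E := by
    intro l k
    by_cases hl : i₀ < l ∧ l ≤ M
    · obtain ⟨Bad, E, h1, h2⟩ := hAV (l - 1) (by omega) (by omega) k
      exact ⟨Bad, E, h1, fun i _ _ hli => by rwa [hli, Nat.add_sub_cancel] at h2⟩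
    · exact ⟨∅, ∅, MeasurableSet.empty, fun i _ _ _ => absurd ⟨by omega, by omega⟩ hl⟩
  choose Bd Ex hBd hGood using hAV'
  set G : ℕ → ℤ → Set (Ph d) := fun l k => Dir d \ Bd l k with hGdef
  have hG : ∀ l k, MeasurableSet (G l k) := fun l k => measurableSet_Dir.diff (hBd l k)
  set e : ℝ := (b : ℝ) ^ (2 * M) / (B * Ssc (d + 1) R ^ 2) with he
  have he1 : 1 ≤ e := h.one_le_err
  refine ⟨G, (Finset.Ico i₀ M).biUnion fun i => (Finset.Ico (k₀ * (b : ℤ) ^ (2 * (M - (i + 1))))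
    ((k₀ + 1) * (b : ℤ) ^ (2 * (M - (i + 1))))).biUnion (Ex (i + 1)), hG, fun l k β hβ => hβ.1,
    ?_, fun 𝓡 g h𝓡 h𝓡2 => ⟨fun X' hX' hE => ?_, fun hne => ?_⟩⟩
  · refine Cov.mono (cov_biUnion _ _ p _
      (fun _ => C * R ^ d * (b : ℝ) ^ (2 * M) / (B ^ 3 * (2 ^ k₁) ^ (d + 1))) fun i hi' => ?_) ?_
    · obtain ⟨h1, h2⟩ := Finset.mem_Ico.1 hi'
      refine Cov.mono (cov_biUnion _ _ p _ _ fun k _ => (hGood (i + 1) k i h1 h2 rfl).1) (le_of_eq ?_)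
      rw [Finset.sum_const, nsmul_eq_mul, Int.card_Ico, show (k₀ + 1) * (b : ℤ) ^ (2 * (M - (i + 1))) -
        k₀ * (b : ℤ) ^ (2 * (M - (i + 1))) = (b ^ (2 * (M - (i + 1))) : ℕ) by push_cast; ring,
        Int.toNat_natCast, Nat.cast_pow, show 2 * M = 2 * (M - (i + 1)) + 2 * (i + 1) by omega, pow_add]
      ring
    · rw [Finset.sum_const, nsmul_eq_mul, Nat.card_Ico]
      have h1 : ((M - i₀ : ℕ) : ℝ) ≤ M := by exact_mod_cast Nat.sub_le _ _
      calc _ ≤ M * (C * R ^ d * (b : ℝ) ^ (2 * M) / (B ^ 3 * (2 ^ k₁) ^ (d + 1))) := by gcongr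
        _ = C * M * (R ^ d * (b : ℝ) ^ (2 * M) / (B ^ 3 * (2 ^ k₁) ^ (d + 1))) := by ring
        _ ≤ B * (R ^ d * (b : ℝ) ^ (2 * M) / (B ^ 3 * (2 ^ k₁) ^ (d + 1))) := by gcongr; linarith
        _ = _ := by field_simp
  · set H := loc √R 0 𝓡 g with hH
    have hT : 0 < √R := by positivity
    have hHg : ‖H‖ ≤ ‖g‖ := norm_loc_le hT 0 h𝓡 g
    have hX'R := Reg.mono hX hX'
    have hw := hX'R.1
    have hmass := mass_le h hX'R fun z hz => hXR z (hX' hz)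
    have hterm : ∀ l ∈ Finset.Ico (i₀ + 1) (M + 1), En X' p w (fun z =>
        tower b (fun l' k => if l' = l then Dir d ∩ Bd l k else G l' k) l M H (p z).2 +
        loc ((b : ℝ) ^ l) (wt b l (p z).2) (Dir d)ᶜ (tower b G (l + 1) M H (p z).2)) ≤
        2 * (2 + C' * (4 * M * (2 * d + 1)).factorial) * (e * ‖g‖ ^ 2) := by
      intro l hl
      obtain ⟨hl1, hl2⟩ := Finset.mem_Ico.1 hl
      obtain ⟨i, rfl⟩ : ∃ i, l = i + 1 := ⟨l - 1, by omega⟩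
      refine (En_add_le hw _ _).trans ?_
      have h1 := hSG b hb₀ j (i + 1) (by omega) (by omega) ι X' p w k₀ hw
        (fun z hz => closedBall_subset_closedBall h.R_le (hXR z (hX' hz))) (fun z hz => hXk z (hX' hz))
        (fun l' k => if l' = i + 1 then Dir d ∩ Bd (i + 1) k else G l' k)
        (fun l' k => by
          split_ifs
          exacts [measurableSet_Dir.inter (hBd _ _), hG _ _])
        (fun l' k β hβ => by
          split_ifs at hβ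
          exacts [hβ.1, hβ.1])
        (B ^ 3)⁻¹ B (B * (((b : ℝ) ^ M) ^ (d + 1) / √R)) (by positivity) hB0.le (by positivity)
        (fun c => by
          have := hX'R.2 c _ (h.bpow_one (2 * j))
          rwa [prd_eq_one hR1 (by positivity) hS, mul_one] at this)
        (fun c => by
          have := hX'R.2 c _ (h.bpow_one M)
          rwa [prd_eq_of_ge hR1 h.rho_le_bM] at this)
        (fun z hz => by
          rw [if_pos rfl]
          refine (hGood (i + 1) _ i (by omega) (by omega) rfl).2.1 z (hX' hz) rfl fun hzE => ?_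
          exact hE z hz (Finset.mem_biUnion.2 ⟨i, Finset.mem_Ico.2 ⟨by omega, by omega⟩,
            Finset.mem_biUnion.2 ⟨_, win_mem h (by omega) (hXk z (hX' hz)), hzE⟩⟩)) H
      have h2 : (b : ℝ) ^ (2 * α * M) ≤ B := by
        refine le_trans ?_ hB
        rw [show 2 * α * M = ((2 * M : ℕ) : ℝ) * α by push_cast; ring, Real.rpow_mul hb0.le,
          Real.rpow_natCast]
        gcongr
      have h3 : (∑ z ∈ X', w z) / (b : ℝ) ^ (4 * (d + 1) * M) ≤ e := by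
        refine le_trans ((div_le_one (by positivity)).2 (hmass.trans ?_)) he1
        rw [show 4 * (d + 1) * M = 4 * M * (d + 1) by ring, pow_mul]
        gcongr
        exact h.R_le
      have h4 := h1.trans (mul_le_mul (add_le_add (sg_num h h2) h3)
        (pow_le_pow_left₀ (norm_nonneg _) hHg 2) (by positivity) (by positivity))
      have h5 := En_le_mass (p := p) hw (fun z => loc ((b : ℝ) ^ (i + 1)) (wt b (i + 1) (p z).2) (Dir d)ᶜ
        (tower b G (i + 1 + 1) M H (p z).2)) (e := C' * R ^ d * Real.exp (-(b : ℝ)) * ‖g‖ ^ 2)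
        fun z hz => by
          refine (norm_loc_sq_le (by positivity) _ measurableSet_Dir.compl _).trans ?_
          have h6 := win_le h.b_pos (i + 1) (p z).2
          refine hCH R b (i + 1 + 1) hR1 hb hL2 (by omega) G hG _ _ _ (C' * b * √R) 1 (h.bpow_one _)
            (h.bpow_mono (by omega)) (h.bpow_le_sqrt (by omega))
            ((norm_snd_le _).trans (mem_closedBall_zero_iff.1 (hXR z (hX' hz))))
            (by rw [sq_pow, abs_le]; constructor <;> linarith [h6.1, h6.2, h.bpow_one (2 * (i + 1))])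
            le_rfl ?_ 𝓡 _ h𝓡 measurableSet_Dir.compl (fun β hβ β' hβ' => Or.inr ?_) g
          · rw [div_le_one (by positivity), pow_succ]
            gcongr
            have h7 : B ≤ B ^ 24 := by simpa using h.Bpow_mono (show 1 ≤ 24 by norm_num)
            linarith [h.bpow_mono (show j ≤ i by omega)]
          · have h7 : 3 < ‖β.2‖ := not_le.1 hβ
            linarith [norm_sub_norm_le β.2 β'.2, h𝓡2 β' hβ']
      have h6 : (∑ z ∈ X', w z) * (C' * R ^ d * Real.exp (-(b : ℝ)) * ‖g‖ ^ 2) ≤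
          C' * (4 * M * (2 * d + 1)).factorial * (e * ‖g‖ ^ 2) := by
        calc _ ≤ R ^ (d + 1) * (C' * R ^ d * Real.exp (-(b : ℝ)) * ‖g‖ ^ 2) := by gcongr
          _ = C' * (R ^ (2 * d + 1) * Real.exp (-(b : ℝ))) * (1 * ‖g‖ ^ 2) := by ring
          _ ≤ _ := by gcongr; exact h.tail' _
      linarith
    have h1 : (fun z : ι => H) = fun z => tower b G (i₀ + 1) M H (p z).2 + _ := funext fun z =>
      telescope h.b_pos G Bd hBd (fun _ _ => rfl) M H (p z).2 (M - i₀) (i₀ + 1) (by omega)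
    rw [h1]
    refine (En_add_le hw _ _).trans (add_le_add le_rfl ?_)
    have h2 := (En_sum_le (p := p) hw (Finset.Ico (i₀ + 1) (M + 1)) _).trans
      (mul_le_mul_of_nonneg_left (Finset.sum_le_sum hterm) (Nat.cast_nonneg _))
    rw [Finset.sum_const, nsmul_eq_mul, Nat.card_Ico] at h2
    have h3 : ((M + 1 - (i₀ + 1) : ℕ) : ℝ) ≤ M := by exact_mod_cast (by omega)
    calc _ ≤ 2 * (M * (M * (2 * (2 + C' * (4 * M * (2 * d + 1)).factorial) * (e * ‖g‖ ^ 2)))) := by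
          refine mul_le_mul_of_nonneg_left (h2.trans ?_) zero_le_two
          gcongr
      _ = K * e * ‖g‖ ^ 2 := by rw [hK]; ring
      _ ≤ _ := by gcongr; exact le_add_of_nonneg_right (by positivity)
  · obtain ⟨z, hz⟩ := hne
    have hT : 0 < √R := by positivity
    have hHg : ‖loc √R 0 𝓡 g‖ ≤ ‖g‖ := norm_loc_le hT 0 h𝓡 g
    have h1 := win_le h.b_pos M (p z).2
    have h2 := abs_le.1 ((norm_snd_le _).trans (mem_closedBall_zero_iff.1 (hXR z hz)))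
    rw [wt, hXk z hz] at h1
    have h3 := chain_top (G := G) h hC (hN M hi.le) (k₀ := k₀)
      (by rw [abs_le]; constructor <;> linarith [h1.1, h1.2, h2.1, h2.2]) h𝓡 g
    have h4 : sc d R B b i₀ M = (b : ℝ) ^ (2 * M) / B ^ 20 := if_neg hi.ne'
    rw [h4] at h3
    have h0 : 0 ≤ ∫ β in 𝓡, xray (vv X p w ((b : ℝ) ^ (2 * M) / B ^ 20))
        ((k₀ - 1) * (b : ℝ) ^ (2 * M)) ((k₀ + 2) * (b : ℝ) ^ (2 * M)) β * ‖co √R 0 g β‖ ^ 2 :=
      integral_nonneg fun β => mul_nonneg (xray_nonneg (vv_nonneg hX.1 (by positivity))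
        (by nlinarith [h.bpow_one (2 * M)]) β) (by positivity)
    have h5 := chain (i₀ := i₀) (e := e * ‖g‖ ^ 2) hD h0 (by positivity) (fun i hi1 hi2 =>
      (chain_step h hC hX.1 hN hG (fun _ _ => diff_subset) hi1 hi2 k₀
        (fun k => (hGood (i + 1) k i hi1 hi2 rfl).2.2) _).trans (by gcongr)) h3 (M - i₀) i₀ le_rfl
      (by omega)
    have h6 : sc d R B b i₀ i₀ = Ssc (d + 1) R ^ 2 * B ^ 3 := if_pos rfl
    rw [Elev, h6] at h5
    refine h5.trans ?_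
    rw [mul_assoc _ e, ← mul_add]
    gcongr
    exact (pow_le_pow_right₀ (by linarith) (by omega)).trans (le_add_of_nonneg_left (by positivity))

end Crest.Agent.N76.II
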