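import Crest.Agent.N76.II.Dens
import Crest.Agent.N76.G.Tail

-- ▼ part N76/II/UT/Basic
section

/-! # Row 76, upper tower: elementary tools (helper14). -/

set_option autoImplicit false

open MeasureTheory Set Metric
open scoped RealInnerProductSpace

namespace Crest.Agent.N76.II.UT

open Crest.Agent.N76.Red (V)
open Crest.Agent.N76.G

variable {d : ℕ}

theorem ediv_eq_iff {k k' c : ℤ} (hc : 0 < c) : k / c = k' ↔ k' * c ≤ k ∧ k < (k' + 1) * c := by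
  rw [← Int.le_ediv_iff_mul_le hc, ← Int.ediv_lt_iff_lt_mul hc]
  omega

theorem sum_windows (f : ℤ → ℝ) (u v : ℤ) {c : ℤ} (hc : 0 < c) :
    ∑ k ∈ Finset.Ico (u * c) (v * c), f k =
      ∑ k' ∈ Finset.Ico u v, ∑ k ∈ Finset.Ico (k' * c) ((k' + 1) * c), f k := by
  rw [← Finset.sum_fiberwise_of_maps_to (g := fun k => k / c) (t := Finset.Ico u v)]
  · refine Finset.sum_congr rfl fun k' hk' => Finset.sum_congr ?_ fun _ _ => rfl
    ext k
    rw [Finset.mem_filter, Finset.mem_Ico, Finset.mem_Ico, ediv_eq_iff hc]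
    rw [Finset.mem_Ico] at hk'
    constructor
    · exact fun h => h.2
    · intro h
      refine ⟨⟨le_trans ?_ h.1, lt_of_lt_of_le h.2 ?_⟩, h⟩
      · exact mul_le_mul_of_nonneg_right hk'.1 hc.le
      · exact mul_le_mul_of_nonneg_right hk'.2 hc.le
  · intro k hk
    rw [Finset.mem_Ico] at hk ⊢
    exact ⟨(Int.le_ediv_iff_mul_le hc).2 hk.1, (Int.ediv_lt_iff_lt_mul hc).2 hk.2⟩

theorem pow_mul_exp_neg_le {x : ℝ} (hx : 0 ≤ x) (N : ℕ) : x ^ N * Real.exp (-x) ≤ N.factorial := by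
  have h := Real.pow_div_factorial_le_exp x hx N
  have hf : (0 : ℝ) < N.factorial := by exact_mod_cast N.factorial_pos
  rw [div_le_iff₀ hf] at h
  rw [Real.exp_neg, ← div_eq_mul_inv, div_le_iff₀ (Real.exp_pos _)]
  linarith

theorem ms_mono {ι α : Type*} {X X' : Finset ι} {p : ι → α} {w : ι → ℝ} (hw : ∀ z ∈ X, 0 ≤ w z)
    (h : X' ⊆ X) (E : Set α) : ms X' p w E ≤ ms X p w E := by
  classical
  unfold ms
  exact Finset.sum_le_sum_of_subset_of_nonneg (Finset.filter_subset_filter _ h)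
    fun z hz _ => hw z (Finset.mem_filter.1 hz).1

theorem Reg.mono {ι : Type*} {R B : ℝ} {X X' : Finset ι} {p : ι → V d × ℝ} {w : ι → ℝ}
    (hX : Reg R B X p w) (h : X' ⊆ X) : Reg R B X' p w :=
  ⟨fun z hz => hX.1 z (h hz), fun u r hr => (ms_mono hX.1 h _).trans (hX.2 u r hr)⟩

theorem En_sum_le {ι κ : Type*} {X : Finset ι} {p : ι → V d × ℝ} {w : ι → ℝ}
    (hw : ∀ z ∈ X, 0 ≤ w z) (s : Finset κ) (H : κ → ι → L2 d) :
    En X p w (fun z => ∑ i ∈ s, H i z) ≤ s.card * ∑ i ∈ s, En X p w (H i) := by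
  unfold En
  rw [Finset.sum_comm, Finset.mul_sum]
  refine Finset.sum_le_sum fun z hz => ?_
  rw [← Finset.mul_sum, mul_left_comm]
  gcongr
  · exact hw z hz
  rw [inner_sum]
  exact (pow_le_pow_left₀ (norm_nonneg _) (norm_sum_le _ _) 2).trans sq_sum_le_card_mul_sum_sq

theorem cov_biUnion {ι κ α : Type*} [DecidableEq ι] [PseudoMetricSpace α] (s : Finset κ)
    (E : κ → Finset ι) (p : ι → α) (r : ℝ) (N : κ → ℝ) (h : ∀ k ∈ s, Cov (E k) p r (N k)) :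
    Cov (s.biUnion E) p r (∑ k ∈ s, N k) := by
  classical
  have h' : ∀ k, ∃ F : Finset α, k ∈ s → (F.card : ℝ) ≤ N k ∧
      ∀ i ∈ E k, ∃ c ∈ F, dist (p i) c ≤ r := fun k => by
    by_cases hk : k ∈ s
    · obtain ⟨F, hF⟩ := h k hk
      exact ⟨F, fun _ => hF⟩
    · exact ⟨∅, fun h => absurd h hk⟩
  choose F hF using h'
  refine ⟨s.biUnion F, ?_, fun i hi => ?_⟩
  · have : ((s.biUnion F).card : ℝ) ≤ ∑ k ∈ s, ((F k).card : ℝ) := by
      exact_mod_cast Finset.card_biUnion_le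
    exact this.trans (Finset.sum_le_sum fun k hk => (hF k hk).1)
  · obtain ⟨k, hk, hik⟩ := Finset.mem_biUnion.1 hi
    obtain ⟨c, hc, hd⟩ := (hF k hk).2 i hik
    exact ⟨c, Finset.mem_biUnion.2 ⟨k, hk, hc⟩, hd⟩

theorem Cov.mono {ι α : Type*} [PseudoMetricSpace α] {E : Finset ι} {p : ι → α} {r N N' : ℝ}
    (h : Cov E p r N) (hN : N ≤ N') : Cov E p r N' := by
  obtain ⟨F, h1, h2⟩ := h
  exact ⟨F, h1.trans hN, h2⟩

/-- lines with direction at most `3` -/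
def Dir (d : ℕ) : Set (Ph d) := {β | ‖β.2‖ ≤ 3}

theorem measurableSet_Dir : MeasurableSet (Dir d) :=
  measurableSet_le (by fun_prop) measurable_const

theorem win_le {b : ℕ} (hb : 0 < b) (j : ℕ) (t : ℝ) :
    wt b j t ≤ t ∧ t < wt b j t + (b : ℝ) ^ (2 * j) := by
  have h0 : (0 : ℝ) < (b : ℝ) ^ (2 * j) := by positivity
  have h1 := Int.floor_le (t / (b : ℝ) ^ (2 * j))
  have h2 := Int.lt_floor_add_one (t / (b : ℝ) ^ (2 * j))
  rw [le_div_iff₀ h0] at h1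
  rw [div_lt_iff₀ h0] at h2
  exact ⟨h1, by unfold wt win; linarith⟩

theorem win_int {b : ℕ} (hb : 0 < b) (j : ℕ) (k : ℤ) : win b j (k * (b : ℝ) ^ (2 * j)) = k := by
  have h0 : (0 : ℝ) < (b : ℝ) ^ (2 * j) := by positivity
  rw [win, mul_div_cancel_right₀ _ h0.ne', Int.floor_intCast]

/-- telescoping of a tower -/
theorem telescope {b : ℕ} (hb : 0 < b) (G Bd : ℕ → ℤ → Set (Ph d))
    (hB : ∀ l k, MeasurableSet (Bd l k)) (hG : ∀ l k, G l k = Dir d \ Bd l k) (M : ℕ) (h : L2 d)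
    (t : ℝ) (m i : ℕ) (hi : i + m = M + 1) :
    h = tower b G i M h t + ∑ l ∈ Finset.Ico i (M + 1),
      (tower b (fun l' k => if l' = l then Dir d ∩ Bd l k else G l' k) l M h t +
        loc ((b : ℝ) ^ l) (wt b l t) (Dir d)ᶜ (tower b G (l + 1) M h t)) := by
  induction m generalizing i with
  | zero =>
    obtain rfl : i = M + 1 := by omega
    simp [tower_top]
  | succ m ih =>
    have hiM : i ≤ M := by omega
    have ha : (0 : ℝ) < (b : ℝ) ^ i := by positivity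
    rw [Finset.sum_eq_sum_Ico_succ_bot (by omega)]
    have h1 := ih (i + 1) (by omega)
    have h2 : tower b (fun l' k => if l' = i then Dir d ∩ Bd i k else G l' k) (i + 1) M h t =
        tower b G (i + 1) M h t := by
      refine tw_congr _ _ (fun j hj => ?_) h
      simp only [lev, if_neg (show j ≠ i by omega)]
    have h3 : tower b G (i + 1) M h t = tower b G i M h t +
        (tower b (fun l' k => if l' = i then Dir d ∩ Bd i k else G l' k) i M h t +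
        loc ((b : ℝ) ^ i) (wt b i t) (Dir d)ᶜ (tower b G (i + 1) M h t)) := by
      rw [tower_eq_loc b G hiM, tower_eq_loc b _ hiM, h2]
      simp only [lev, if_true, hG]
      rw [← loc_union ha _ (measurableSet_Dir.inter (hB _ _)) measurableSet_Dir.compl
        (Set.disjoint_left.2 fun β h1 h2 => h2 h1.1),
        ← loc_union ha _ (measurableSet_Dir.diff (hB _ _))
          ((measurableSet_Dir.inter (hB _ _)).union measurableSet_Dir.compl)
          (Set.disjoint_left.2 fun β h1 h2 => h2.elim (fun h3 => h1.2 h3.2) fun h3 => h3 h1.1)]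
      convert (loc_univ ha (wt b i t) _).symm using 2
      ext β
      simp only [mem_union, mem_diff, mem_inter_iff, mem_compl_iff, mem_univ, iff_true]
      tauto
    rw [← add_assoc, ← h3]
    exact h1

/-- transfer of the weight of a line to a higher frame -/
theorem xray_transfer {W : V d × ℝ → ℝ} {Mx r : ℝ} (hW : Nice W Mx r) (hr : 0 < r)
    {a a' t t' R q : ℝ} (ha : 1 ≤ a) (haa : a ≤ a') (hR : a' ^ 2 ≤ R) (ht : |t - t'| ≤ 2 * a' ^ 2)
    (hq : 1 ≤ q) (hqr : 10 * √d * q * a' ≤ r) {c : Ph d → ℂ} (hc : MemLp c 2 volume) :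
    ∫ β in Dir d, xray W (t - a ^ 2) (t + 2 * a ^ 2) β * ‖co a t (syn a' t' c) β‖ ^ 2 ≤
      6 * 9 ^ d * (∫ β, xray W (t - a ^ 2) (t + 2 * a ^ 2) β * ‖c β‖ ^ 2) +
      18 * 16 ^ d * ((5 * R) ^ d * Real.exp (-(q ^ 2 / 7))) * (Mx * a ^ 2) * ∫ β, ‖c β‖ ^ 2 := by
  have ha0 : 0 < a := by linarith
  have ha0' : 0 < a' := by linarith
  have hI : t - a ^ 2 ≤ t + 2 * a ^ 2 := by nlinarith
  have hMx : 0 ≤ Mx := (hW.2.1 0).1.trans (hW.2.1 0).2
  set x : Ph d → ℝ := xray W (t - a ^ 2) (t + 2 * a ^ 2) with hx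
  have hxc : Continuous x := continuous_xray hW.1 _ _
  have hx0 : ∀ β, 0 ≤ x β := xray_nonneg (fun u => (hW.2.1 u).1) hI
  have hx1 : ∀ β, x β ≤ 3 * (Mx * a ^ 2) := fun β =>
    (xray_le hW.1 (fun u => (hW.2.1 u).2) hI β).trans (le_of_eq (by ring))
  have he : Real.exp 1 ≤ 3 := Real.exp_one_lt_three.le
  have h := transfer ha0 ha0' t t' t hc (W := x) (W' := fun β => 3 * x β) hxc.measurable
    (hxc.measurable.const_mul 3) (Wm := 9 * (Mx * a ^ 2)) hx0 (fun β => by linarith [hx0 β])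
    (fun β => by nlinarith [hx1 β, hx0 β]) (fun β => by linarith [hx1 β])
    (r₁ := q * a') (r₂ := q / a) (s := q ^ 2 / 20) (by positivity) (by positivity) ?_ ?_
  · refine le_trans (setIntegral_le_integral (integrable_weight hxc.measurable
      (fun β => by rw [abs_of_nonneg (hx0 β)]; exact hx1 β) (memLp_co ha0 _ _))
      (Filter.Eventually.of_forall fun β => mul_nonneg (hx0 β) (by positivity))) (h.trans ?_)
    simp_rw [mul_assoc (3 : ℝ)]
    rw [integral_const_mul]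
    refine add_le_add (le_of_eq (by ring)) ?_
    have hc0 : 0 ≤ ∫ β, ‖c β‖ ^ 2 := integral_nonneg fun β => by positivity
    gcongr
    have hR1 : 1 ≤ 5 * R := by nlinarith
    have h1 : ((5 * R) ^ d)⁻¹ ≤ pre d a t a' t' ^ 2 := by
      refine le_trans ?_ (pre_sq_ge ha0 haa ht)
      rw [← inv_pow, ← Real.rpow_natCast]
      have h2 : (5 * R)⁻¹ ≤ a ^ 2 / (5 * a' ^ 2) := by
        rw [← one_div]; gcongr; nlinarith
      calc (5 * R)⁻¹ ^ (d : ℝ) ≤ (5 * R)⁻¹ ^ ((d : ℝ) / 2) :=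
            Real.rpow_le_rpow_of_exponent_ge (by positivity) (inv_le_one_of_one_le₀ hR1)
              (by have : (0 : ℝ) ≤ d := Nat.cast_nonneg d; linarith)
        _ ≤ _ := by gcongr
    have h3 : Real.exp (-Real.pi * (q ^ 2 / 20)) ≤ Real.exp (-(q ^ 2 / 7)) := by
      refine Real.exp_le_exp.2 ?_
      nlinarith [Real.pi_gt_three, sq_nonneg q]
    calc _ ≤ 2 * (9 * (Mx * a ^ 2)) * 16 ^ d * Real.exp (-(q ^ 2 / 7)) / ((5 * R) ^ d)⁻¹ := by
          gcongr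
      _ = _ := by field_simp; ring
  · intro β β' h1 h2
    refine (xray_close hW hr hI (s := r) (β' := β') fun τ hτ => ?_).trans ?_
    · have e : pos τ (β - β') = pos t (β - β') - (2 * (τ - t)) • (β - β').2 := by
        simp only [pos, mul_sub, sub_smul]; abel
      rw [e]
      refine (norm_sub_le _ _).trans ?_
      have h3 : |2 * (τ - t)| ≤ 4 * a ^ 2 := by
        rw [abs_le]; constructor <;> nlinarith [hτ.1, hτ.2]
      have h4 : ‖(2 * (τ - t)) • (β - β').2‖ ≤ 4 * a ^ 2 * (2 * √d * (q / a)) := by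
        rw [norm_smul, Real.norm_eq_abs]; gcongr
      have h5 : 4 * a ^ 2 * (2 * √d * (q / a)) = 8 * √d * q * a := by field_simp; ring
      have h6 : 8 * √d * q * a ≤ 8 * √d * q * a' := by gcongr
      linarith
    · rw [div_self hr.ne']
      exact mul_le_mul_of_nonneg_right he (hx0 β')
  · intro Δ hΔ
    refine le_trans ?_ (Qf_ge_two ha0 haa ht Δ)
    rcases hΔ with h1 | h1
    · have : q ^ 2 / 20 ≤ ‖pos t Δ‖ ^ 2 / (20 * a' ^ 2) := by
        rw [div_le_div_iff₀ (by norm_num) (by positivity)]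
        have := pow_le_pow_left₀ (by positivity) h1 2
        nlinarith
      have : 0 ≤ a ^ 2 * ‖Δ.2‖ ^ 2 / 20 := by positivity
      linarith
    · have : q ^ 2 ≤ a ^ 2 * ‖Δ.2‖ ^ 2 := by
        rw [div_le_iff₀ ha0] at h1
        have := pow_le_pow_left₀ (by positivity) h1 2
        nlinarith
      have : 0 ≤ ‖pos t Δ‖ ^ 2 / (20 * a' ^ 2) := by positivity
      linarith

end Crest.Agent.N76.II.UT
end

-- ▼ part N76/II/UT/Num

/-! # Row 76, upper tower: the numerical bookkeeping (helper14). -/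

set_option autoImplicit false

namespace Crest.Agent.N76.II.UT

/-- the numerical hypotheses of `UT` -/
structure NF (d M : ℕ) (R B : ℝ) (b j i₀ : ℕ) : Prop where
  hd : 1 ≤ d
  hR : 1 ≤ R
  hB : 10 ≤ B
  hBd : 10 * √d ≤ B
  hb : 2 ≤ b
  hbB : (b : ℝ) ≤ B
  hL1 : R / B ≤ (b : ℝ) ^ (2 * M)
  hL2 : (b : ℝ) ^ (2 * M) ≤ R
  hj : j ≤ i₀
  hi : i₀ < M
  h24 : B ^ 24 ≤ (b : ℝ) ^ j
  hS : (b : ℝ) ^ (2 * j) ≤ Ssc (d + 1) R
  h23 : Ssc (d + 1) R ^ 2 * B ^ 23 ≤ (b : ℝ) ^ (2 * i₀)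
  hi0 : (b : ℝ) ^ i₀ ≤ Ssc (d + 1) R ^ 2
  hi0' : (b : ℝ) ^ (2 * i₀) ≤ Ssc (d + 1) R ^ 2 * (b : ℝ) ^ j

/-- the averaging scale of level `i` -/
noncomputable def sc (d : ℕ) (R B : ℝ) (b i₀ i : ℕ) : ℝ :=
  if i = i₀ then Ssc (d + 1) R ^ 2 * B ^ 3 else (b : ℝ) ^ (2 * i) / B ^ 20

theorem sq_pow (b i : ℕ) : ((b : ℝ) ^ i) ^ 2 = (b : ℝ) ^ (2 * i) := by
  rw [← pow_mul, mul_comm]

namespace NF

variable {d M : ℕ} {R B : ℝ} {b j i₀ : ℕ} (h : NF d M R B b j i₀)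
include h

theorem B_pos : 0 < B := by linarith [h.hB]
theorem B_one : 1 ≤ B := by linarith [h.hB]
theorem b_pos : 0 < b := by linarith [h.hb]
theorem b_two : (2 : ℝ) ≤ b := by exact_mod_cast h.hb
theorem b_one : (1 : ℝ) ≤ b := by linarith [h.b_two]
theorem bpow_mono {x y : ℕ} (hxy : x ≤ y) : (b : ℝ) ^ x ≤ (b : ℝ) ^ y :=
  pow_le_pow_right₀ h.b_one hxy
theorem Bpow_mono {x y : ℕ} (hxy : x ≤ y) : B ^ x ≤ B ^ y := pow_le_pow_right₀ h.B_one hxy
theorem bpow_one (x : ℕ) : 1 ≤ (b : ℝ) ^ x := one_le_pow₀ h.b_one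

theorem B48 : B ^ 48 ≤ Ssc (d + 1) R := by
  refine le_trans ?_ h.hS
  rw [← sq_pow, show 48 = 24 * 2 by norm_num, pow_mul]
  exact pow_le_pow_left₀ (by have := h.B_pos; positivity) h.h24 2

theorem Bpow_le_S {x : ℕ} (hx : x ≤ 48) : B ^ x ≤ Ssc (d + 1) R := (h.Bpow_mono hx).trans h.B48

theorem S_one : 1 ≤ Ssc (d + 1) R := by simpa using h.Bpow_le_S (x := 0) (by norm_num)

theorem S3_le : Ssc (d + 1) R ^ 3 ≤ √R := by
  rw [← Ssc_pow (d := d) h.hR]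
  exact pow_le_pow_right₀ h.S_one (by linarith [h.hd])

theorem sqrt_sq : √R ^ 2 = R := Real.sq_sqrt (by linarith [h.hR])

theorem sqrt_one : 1 ≤ √R := Real.one_le_sqrt.2 h.hR

theorem sqrt_le : √R ≤ R := by nlinarith [h.sqrt_sq, h.sqrt_one]

theorem S_le_sqrt : Ssc (d + 1) R ≤ √R :=
  (le_self_pow₀ h.S_one (by norm_num)).trans h.S3_le

theorem B_le_sqrt : B ≤ √R := by simpa using (h.Bpow_le_S (x := 1) (by norm_num)).trans h.S_le_sqrt

theorem sqrt_le_L : √R ≤ (b : ℝ) ^ (2 * M) := by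
  refine le_trans ?_ h.hL1
  rw [le_div_iff₀ h.B_pos]
  nlinarith [h.sqrt_sq, h.sqrt_one, h.B_le_sqrt]

theorem R_le : R ≤ (b : ℝ) ^ (4 * M) := by
  have := pow_le_pow_left₀ (Real.sqrt_nonneg R) h.sqrt_le_L 2
  rwa [h.sqrt_sq, ← pow_mul, show 2 * M * 2 = 4 * M by ring] at this

theorem one_le_err : 1 ≤ (b : ℝ) ^ (2 * M) / (B * Ssc (d + 1) R ^ 2) := by
  have h1 := h.S_one
  have h2 := h.B_pos
  rw [one_le_div (by positivity)]
  refine le_trans ?_ (h.S3_le.trans h.sqrt_le_L)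
  have : B ≤ Ssc (d + 1) R := by simpa using h.Bpow_le_S (x := 1) (by norm_num)
  calc B * Ssc (d + 1) R ^ 2 ≤ Ssc (d + 1) R * Ssc (d + 1) R ^ 2 := by gcongr
    _ = _ := by ring

theorem rho_le_bM : Ssc (d + 1) R ^ 2 ≤ (b : ℝ) ^ M := by
  have h1 := h.S_one
  have h2 := h.B_pos
  refine le_of_sq_le_sq ?_ (by positivity)
  rw [sq_pow]
  refine le_trans ?_ h.hL1
  rw [le_div_iff₀ h2]
  have h3 : B ≤ Ssc (d + 1) R := by simpa using h.Bpow_le_S (x := 1) (by norm_num)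
  have h4 := pow_le_pow_left₀ (by positivity) h.S3_le 2
  rw [h.sqrt_sq] at h4
  calc (Ssc (d + 1) R ^ 2) ^ 2 * B ≤ (Ssc (d + 1) R ^ 2) ^ 2 * Ssc (d + 1) R ^ 2 := by
        gcongr; exact h3.trans (le_self_pow₀ h1 (by norm_num))
    _ = (Ssc (d + 1) R ^ 3) ^ 2 := by ring
    _ ≤ R := h4

theorem bpow_le_sqrt {i : ℕ} (hi : i ≤ M) : (b : ℝ) ^ i ≤ √R := by
  refine Real.le_sqrt_of_sq_le ?_
  rw [sq_pow]; exact (h.bpow_mono (by omega)).trans h.hL2

theorem sc_le {i : ℕ} (hi : i₀ ≤ i) : sc d R B b i₀ i ≤ (b : ℝ) ^ (2 * i) / B ^ 20 := by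
  unfold sc
  split_ifs with h1
  · have := h.B_pos
    rw [h1, le_div_iff₀ (by positivity)]
    refine le_trans (le_of_eq (by ring)) h.h23
  · exact le_rfl

theorem le_sc {i : ℕ} (hi : i₀ ≤ i) : Ssc (d + 1) R ^ 2 * B ^ 3 ≤ sc d R B b i₀ i := by
  unfold sc
  split_ifs with h1
  · exact le_rfl
  · have := h.B_pos
    rw [le_div_iff₀ (by positivity)]
    refine le_trans (le_of_eq (by ring)) (h.h23.trans (h.bpow_mono (by omega)))

theorem rho_le_sc {i : ℕ} (hi : i₀ ≤ i) : Ssc (d + 1) R ^ 2 ≤ sc d R B b i₀ i :=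
  (le_mul_of_one_le_right (by positivity) (one_le_pow₀ h.B_one)).trans (h.le_sc hi)

theorem sc_pos {i : ℕ} (hi : i₀ ≤ i) : 0 < sc d R B b i₀ i :=
  lt_of_lt_of_le (by have := h.S_one; positivity) (h.rho_le_sc hi)

theorem sc_succ {i : ℕ} (hi : i₀ ≤ i) :
    sc d R B b i₀ (i + 1) = (b : ℝ) ^ (2 * (i + 1)) / B ^ 20 := if_neg (by omega)

theorem sc_mono {i : ℕ} (hi : i₀ ≤ i) : sc d R B b i₀ i ≤ sc d R B b i₀ (i + 1) := by
  rw [h.sc_succ hi]
  refine (h.sc_le hi).trans ?_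
  have := h.B_pos
  gcongr
  · exact h.b_one
  · omega

theorem sc_le_half {i : ℕ} (hi : i₀ ≤ i) : sc d R B b i₀ i ≤ (b : ℝ) ^ (2 * i) / 2 := by
  refine (h.sc_le hi).trans ?_
  have h1 : B ≤ B ^ 20 := by simpa using h.Bpow_mono (show 1 ≤ 20 by norm_num)
  have := h.hB
  gcongr; linarith

theorem B_mul_le_sc {i : ℕ} (hi : i₀ ≤ i) : B * (b : ℝ) ^ 2 * (b : ℝ) ^ i ≤ sc d R B b i₀ i := by
  have hB := h.B_pos
  have hb2 : (b : ℝ) ^ 2 ≤ B ^ 2 := by gcongr; exact h.hbB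
  unfold sc
  split_ifs with h1
  · rw [h1]
    calc _ ≤ B * B ^ 2 * Ssc (d + 1) R ^ 2 := by gcongr; exact h.hi0
      _ = _ := by ring
  · rw [le_div_iff₀ (by positivity), ← sq_pow]
    have h2 : B ^ 23 ≤ (b : ℝ) ^ i :=
      ((h.Bpow_mono (by norm_num)).trans h.h24).trans (h.bpow_mono (by linarith [h.hj]))
    calc _ ≤ B * B ^ 2 * (b : ℝ) ^ i * B ^ 20 := by gcongr
      _ = B ^ 23 * (b : ℝ) ^ i := by ring
      _ ≤ (b : ℝ) ^ i * (b : ℝ) ^ i := by gcongr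
      _ = _ := by ring

theorem win_le_sc {i : ℕ} (hi : i₀ ≤ i) :
    2 * (b : ℝ) ^ (2 * (i + 1)) / (b : ℝ) ^ j ≤ sc d R B b i₀ i / 4 := by
  have hB := h.B_pos
  have hb0 : (0 : ℝ) < b := by linarith [h.b_two]
  have hb2 : (b : ℝ) ^ 2 ≤ B ^ 2 := by gcongr; exact h.hbB
  have e : (b : ℝ) ^ (2 * (i + 1)) = (b : ℝ) ^ 2 * (b : ℝ) ^ (2 * i) := by ring
  rw [div_le_div_iff₀ (by positivity) (by norm_num), e]
  have h8 : 8 ≤ B := by linarith [h.hB]
  unfold sc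
  split_ifs with h1
  · rw [h1]
    calc _ = 8 * (b : ℝ) ^ 2 * (b : ℝ) ^ (2 * i₀) := by ring
      _ ≤ B * B ^ 2 * (Ssc (d + 1) R ^ 2 * (b : ℝ) ^ j) := by gcongr; exact h.hi0'
      _ = _ := by ring
  · rw [div_mul_eq_mul_div, le_div_iff₀ (by positivity)]
    calc _ = 8 * (b : ℝ) ^ 2 * B ^ 20 * (b : ℝ) ^ (2 * i) := by ring
      _ ≤ B * B ^ 2 * B ^ 20 * (b : ℝ) ^ (2 * i) := by gcongr
      _ = B ^ 23 * (b : ℝ) ^ (2 * i) := by ring
      _ ≤ (b : ℝ) ^ j * (b : ℝ) ^ (2 * i) := by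
          gcongr; exact (h.Bpow_mono (by norm_num)).trans h.h24
      _ = _ := by ring

theorem top_le_sc : B * b * √R ≤ sc d R B b i₀ M := by
  have hB := h.B_pos
  rw [sc, if_neg h.hi.ne', le_div_iff₀ (by positivity)]
  refine le_trans ?_ h.hL1
  rw [le_div_iff₀ hB]
  have h1 : B ^ 23 ≤ √R := (h.Bpow_le_S (by norm_num)).trans h.S_le_sqrt
  have h2 := h.sqrt_one
  calc _ ≤ B * B * √R * B ^ 20 * B := by gcongr; exact h.hbB
    _ = B ^ 23 * √R := by ring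
    _ ≤ √R * √R := by gcongr
    _ = R := by rw [← sq, h.sqrt_sq]

/-- Gaussian tails beat every power of `R` -/
theorem tail (N : ℕ) : R ^ N * Real.exp (-((b : ℝ) ^ 2 / 7)) ≤
    7 ^ (2 * M * N) * (2 * M * N).factorial := by
  have h1 := pow_mul_exp_neg_le (x := (b : ℝ) ^ 2 / 7) (by positivity) (2 * M * N)
  have h2 : R ^ N ≤ 7 ^ (2 * M * N) * ((b : ℝ) ^ 2 / 7) ^ (2 * M * N) := by
    rw [← mul_pow, mul_div_cancel₀ _ (by norm_num), ← pow_mul,
      show 2 * (2 * M * N) = 4 * M * N by ring, pow_mul]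
    exact pow_le_pow_left₀ (by linarith [h.hR]) h.R_le N
  calc _ ≤ 7 ^ (2 * M * N) * ((b : ℝ) ^ 2 / 7) ^ (2 * M * N) *
        Real.exp (-((b : ℝ) ^ 2 / 7)) := by gcongr
    _ ≤ _ := by rw [mul_assoc]; gcongr

theorem tail' (N : ℕ) : R ^ N * Real.exp (-(b : ℝ)) ≤ (4 * M * N).factorial := by
  refine le_trans ?_ (pow_mul_exp_neg_le (x := (b : ℝ)) (by positivity) (4 * M * N))
  gcongr
  rw [pow_mul]
  exact pow_le_pow_left₀ (by linarith [h.hR]) h.R_le N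

end NF

end Crest.Agent.N76.II.UT
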